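import Vale.Agent.P352.BW.H23.S

/-!
# P352, light cones: the strip lemma with phases, block S with phases (helper732)
-/

set_option linter.all false

open MeasureTheory Filter Topology
open scoped ComplexConjugate InnerProductSpace BoundedContinuousFunction

namespace Vale.Agent.P352.BW.H732.Lc

open Vale.Agent.P132 (ModData expB reflB)
open Vale.Agent.P352.BW.H23

/-- functions on `ℝ` with the product relation are constant -/
theorem mul_const {a : ℝ → ℂ} {C : ℝ} (hb : ∀ s, ‖a s‖ ≤ C)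
    (h : ∀ s τ : ℝ, a (s + τ) * conj (a (-s)) = a τ * conj (a 0)) : ∀ s, a s = a 0 := by
  have h1 : ∀ s, a s * conj (a s) = a (2 * s) * conj (a 0) := by
    intro s
    have := h (-s) (2 * s)
    rw [neg_neg, show -s + 2 * s = s by ring] at this
    exact this
  by_cases h0 : a 0 = 0
  · intro s
    have := h1 s
    rw [h0, map_zero, mul_zero, Complex.mul_conj] at this
    rw [h0]
    exact Complex.normSq_eq_zero.1 (by exact_mod_cast this)
  have hc0 : conj (a 0) ≠ 0 := by simpa using h0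
  -- the quotient is multiplicative
  have h2 : ∀ s, a s * conj (a (-s)) = a 0 * conj (a 0) := by
    intro s
    have := h s 0
    rwa [add_zero] at this
  have hne : ∀ s, a s ≠ 0 := by
    intro s hs
    have := h2 s
    rw [hs, zero_mul] at this
    exact mul_ne_zero h0 hc0 this.symm
  have h3 : ∀ s τ, a (s + τ) * a 0 = a s * a τ := by
    intro s τ
    have e1 := h s τ
    have e2 := h2 s
    have hm : conj (a (-s)) ≠ 0 := by simpa using hne (-s)
    apply mul_right_cancel₀ hm
    apply mul_right_cancel₀ hc0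
    linear_combination (a 0 * conj (a 0)) * e1 - (a τ * conj (a 0)) * e2
  set ρ : ℝ → ℂ := fun s => a s / a 0 with hρ
  have r0 : ρ 0 = 1 := div_self h0
  have rm : ∀ s τ, ρ (s + τ) = ρ s * ρ τ := by
    intro s τ
    simp only [hρ]
    rw [div_mul_div_comm, div_eq_div_iff h0 (mul_ne_zero h0 h0), ← h3 s τ]
    ring
  have rp : ∀ s (n : ℕ), ρ (n * s) = ρ s ^ n := by
    intro s n
    induction n with
    | zero => rw [Nat.cast_zero, zero_mul, r0, pow_zero]
    | succ n ih =>
      rw [Nat.cast_succ, add_mul, one_mul, rm, ih, pow_succ]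
  have rb : ∀ s, ‖ρ s‖ ≤ C / ‖a 0‖ := by
    intro s
    simp only [hρ]
    rw [norm_div]
    exact div_le_div_of_nonneg_right (hb s) (norm_nonneg _)
  have r1 : ∀ s, ‖ρ s‖ ≤ 1 := by
    intro s
    by_contra hc
    push Not at hc
    obtain ⟨n, hn⟩ := pow_unbounded_of_one_lt (C / ‖a 0‖) hc
    have := rb (n * s)
    rw [rp, norm_pow] at this
    linarith
  have r2 : ∀ s, ‖ρ s‖ = 1 := by
    intro s
    refine le_antisymm (r1 s) ?_
    have e1 : ρ s * ρ (-s) = 1 := by
      rw [← rm, add_neg_cancel, r0]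
    have e2 : ‖ρ s‖ * ‖ρ (-s)‖ = 1 := by
      rw [← norm_mul, e1, norm_one]
    have e3 := r1 (-s)
    have e4 := norm_nonneg (ρ s)
    nlinarith
  have r3 : ∀ s, ρ (2 * s) = 1 := by
    intro s
    have e1 : ρ (2 * s) = ρ s * conj (ρ s) := by
      simp only [hρ]
      rw [map_div₀, div_mul_div_comm, h1 s, div_eq_div_iff h0 (mul_ne_zero h0 hc0)]
      ring
    rw [e1, Complex.mul_conj, Complex.normSq_eq_norm_sq, r2]
    norm_num
  intro s
  have := r3 (s / 2)
  rw [mul_div_cancel₀ s two_ne_zero] at this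
  exact (div_eq_one_iff_eq h0).1 this

/-- **the strip lemma with phases** -/
theorem ph (hA : AStmt) (f g : ℂ → ℂ) (C : ℝ) {k₁ k₂ : ℂ} (hk1 : ‖k₁‖ = 1) (hk2 : ‖k₂‖ = 1)
    (fd : DifferentiableOn ℂ f StI) (gd : DifferentiableOn ℂ g StI)
    (fc : ContinuousOn f St) (gc : ContinuousOn g St)
    (fb : ∀ z ∈ St, ‖f z‖ ≤ C) (gb : ∀ z ∈ St, ‖g z‖ ≤ C)
    (h1 : ∀ s : ℝ, f (s + Complex.I / 2) = k₁ * g s)
    (h2 : ∀ s : ℝ, g (s + Complex.I / 2) = k₂ * f s) : ∀ s : ℝ, f s = f 0 := by
  have oI : IsOpen StI := (isOpen_lt continuous_const Complex.continuous_im).inter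
    (isOpen_lt Complex.continuous_im continuous_const)
  have oL : IsOpen {z : ℂ | -(1 / 2) < z.im ∧ z.im < 0} :=
    (isOpen_lt continuous_const Complex.continuous_im).inter
      (isOpen_lt Complex.continuous_im continuous_const)
  have e1 : k₁ * conj k₁ = 1 := by
    rw [Complex.mul_conj, Complex.normSq_eq_norm_sq, hk1]; norm_num
  have e2 : k₂ * conj k₂ = 1 := by
    rw [Complex.mul_conj, Complex.normSq_eq_norm_sq, hk2]; norm_num
  -- reflections and translations of a function
  have dstar : ∀ φ : ℂ → ℂ, DifferentiableOn ℂ φ StI →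
      DifferentiableOn ℂ (fun z => conj (φ (-conj z))) StI := by
    intro φ hφ z hz
    have hm : -conj z ∈ StI := by
      have h3 := hz.1
      have h4 := hz.2
      simp only [StI, Set.mem_setOf_eq, Complex.neg_im, Complex.conj_im, neg_neg]
      exact ⟨h3, h4⟩
    have h3 : DifferentiableAt ℂ (fun w => φ (-w)) (conj z) := by
      have h4 : DifferentiableAt ℂ φ (-conj z) := (hφ _ hm).differentiableAt (oI.mem_nhds hm)
      exact h4.comp (conj z) differentiable_neg.differentiableAt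
    exact (differentiableAt_conj_conj_iff.2 h3).differentiableWithinAt
  have cstar : ∀ φ : ℂ → ℂ, ContinuousOn φ St →
      ContinuousOn (fun z => conj (φ (-conj z))) St := by
    intro φ hφ
    refine Complex.continuous_conj.comp_continuousOn
      (hφ.comp (Complex.continuous_conj.neg).continuousOn fun z hz => ?_)
    simp only [St, Set.mem_setOf_eq, Complex.neg_im, Complex.conj_im, neg_neg]
    exact hz
  have dtr : ∀ (φ : ℂ → ℂ) (τ : ℝ), DifferentiableOn ℂ φ StI →
      DifferentiableOn ℂ (fun z => φ (z + τ)) StI := by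
    intro φ τ hφ
    refine hφ.comp (differentiable_id.add_const _).differentiableOn fun z hz => ?_
    simp only [StI, Set.mem_setOf_eq, id, Complex.add_im, Complex.ofReal_im, add_zero]
    exact hz
  have ctr : ∀ (φ : ℂ → ℂ) (τ : ℝ), ContinuousOn φ St →
      ContinuousOn (fun z => φ (z + τ)) St := by
    intro φ τ hφ
    refine hφ.comp (continuous_id.add continuous_const).continuousOn fun z hz => ?_
    simp only [St, Set.mem_setOf_eq, id, Complex.add_im, Complex.ofReal_im, add_zero]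
    exact hz
  have hm1 : ∀ z ∈ St, -conj z ∈ St := fun z hz => by
    simp only [St, Set.mem_setOf_eq, Complex.neg_im, Complex.conj_im, neg_neg]
    exact hz
  have hm2 : ∀ (τ : ℝ), ∀ z ∈ St, z + τ ∈ St := fun τ z hz => by
    simp only [St, Set.mem_setOf_eq, Complex.add_im, Complex.ofReal_im, add_zero]
    exact hz
  have hC : 0 ≤ C := by
    refine (norm_nonneg (f 0)).trans (fb 0 ?_)
    simp [St]
  have h0 : ∀ s : ℝ, (s : ℂ) ∈ St := fun s => by simp [St]
  refine mul_const (a := fun s : ℝ => f s) (C := C) (fun s => fb _ (h0 s)) fun s τ => ?_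
  have key := hA (fun z => f (z + τ) * conj (f (-conj z))) (fun z => g (z + τ) * conj (g (-conj z)))
    (C * C) ((dtr f τ fd).mul (dstar f fd)) ((dtr g τ gd).mul (dstar g gd))
    (((ctr f τ fc).mul (cstar f fc)).mono Set.diff_subset)
    (((ctr g τ gc).mul (cstar g gc)).mono Set.diff_subset)
    (fun z hz => ?_) (fun z hz => ?_) (fun s _ => ?_) (fun s _ => ?_) s
  · simp only [Complex.conj_ofReal, ← Complex.ofReal_neg, ← Complex.ofReal_add, map_zero, neg_zero,
      zero_add] at key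
    simpa using key
  · rw [norm_mul]
    refine mul_le_mul (fb _ (hm2 τ z hz)) ?_ (norm_nonneg _) hC
    exact (RCLike.norm_conj _).le.trans (fb _ (hm1 z hz))
  · rw [norm_mul]
    refine mul_le_mul (gb _ (hm2 τ z hz)) ?_ (norm_nonneg _) hC
    exact (RCLike.norm_conj _).le.trans (gb _ (hm1 z hz))
  · have c1 : -conj ((s : ℂ) + Complex.I / 2) = ((-s : ℝ) : ℂ) + Complex.I / 2 := by
      rw [map_add, Complex.conj_ofReal, map_div₀, Complex.conj_I, map_ofNat]
      push_cast
      ring
    have c2 : (s : ℂ) + Complex.I / 2 + τ = ((s + τ : ℝ) : ℂ) + Complex.I / 2 := by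
      push_cast
      ring
    simp only [c1, c2, h1]
    rw [map_mul, Complex.conj_ofReal]
    have c3 : (s : ℂ) + τ = ((s + τ : ℝ) : ℂ) := by push_cast; ring
    have c4 : -(s : ℂ) = ((-s : ℝ) : ℂ) := by push_cast; ring
    rw [c3, c4]
    linear_combination (g ((s + τ : ℝ) : ℂ) * conj (g ((-s : ℝ) : ℂ))) * e1
  · have c1 : -conj ((s : ℂ) + Complex.I / 2) = ((-s : ℝ) : ℂ) + Complex.I / 2 := by
      rw [map_add, Complex.conj_ofReal, map_div₀, Complex.conj_I, map_ofNat]
      push_cast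
      ring
    have c2 : (s : ℂ) + Complex.I / 2 + τ = ((s + τ : ℝ) : ℂ) + Complex.I / 2 := by
      push_cast
      ring
    simp only [c1, c2, h2]
    rw [map_mul, Complex.conj_ofReal]
    have c3 : (s : ℂ) + τ = ((s + τ : ℝ) : ℂ) := by push_cast; ring
    have c4 : -(s : ℂ) = ((-s : ℝ) : ℂ) := by push_cast; ring
    rw [c3, c4]
    linear_combination (f ((s + τ : ℝ) : ℂ) * conj (f ((-s : ℝ) : ℂ))) * e2

variable {H : Type*} [NormedAddCommGroup H] [InnerProductSpace ℂ H] [CompleteSpace H]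
variable {M : VonNeumannAlgebra H} {ξ : H}

/-- **block S with phases** -/
theorem sblockP (DM : ModData M ξ) (hA : AStmt) (V : ℝ → H → H) (hV0 : ∀ z, V 0 z = z)
    (hVT : ∀ F t z, V t (DM.Th F z) = DM.Th F (V t z)) (hVJ : ∀ t z, V t (DM.J z) = DM.J (V t z))
    (hVs : ∀ t (c : ℂ) z, V t (c • z) = c • V t z) {k₁ k₂ : ℂ} (hk1 : ‖k₁‖ = 1) (hk2 : ‖k₂‖ = 1)
    (x xj x' xs : H) (h1 : Ct V x (k₁ • xj)) (h2 : Ct (fun t => V (-t)) x' (k₂ • xs))
    (hR : ∀ F G : ℝ →ᵇ ℂ, (∀ h : ℝ, F h = Real.exp (-(h / 2)) * G h) →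
      DM.Th G (DM.J x') = DM.Th F xj)
    (hL : ∀ F G : ℝ →ᵇ ℂ, (∀ h : ℝ, F h = Real.exp (h / 2) * G h) →
      DM.Th G (DM.J x) = DM.Th F xs) (t : ℝ) : DM.U t (V (-t) x) = x := by
  obtain ⟨φ, C₁, hφd, hφc, hφb, hφv⟩ := h1.ex
  obtain ⟨ψ, C₂, hψd, hψc, hψb, hψv⟩ := h2.ex
  rw [← sub_eq_zero]
  refine DM.gd_zero fun κ hκ => ?_
  rw [map_sub, sub_eq_zero]
  refine ext_inner_left ℂ fun u => ?_
  -- the two functions
  set κ' : ℝ →ᵇ ℂ := reflB κ with hκ'
  have hκc : HasCompactSupport κ' := reflB_compact hκ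
  set T : ℂ → H →L[ℂ] H := fun z => DM.Th (ez κ hκ (Complex.I * z)) with hT
  set T' : ℂ → H →L[ℂ] H := fun z => DM.Th (ez κ' hκc (Complex.I * z)) with hT'
  set f : ℂ → ℂ := fun z => ⟪u, T z (φ (-z))⟫_ℂ with hf
  set k : ℂ → ℂ := fun z => ⟪DM.J u, T' z (ψ z)⟫_ℂ with hk
  set g : ℂ → ℂ := fun z => conj (k (conj z)) with hg
  obtain ⟨B, hB⟩ := T_bd DM κ hκ
  obtain ⟨B', hB'⟩ := T_bd DM κ' hκc
  have oI : IsOpen StI := (isOpen_lt continuous_const Complex.continuous_im).inter
    (isOpen_lt Complex.continuous_im continuous_const)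
  have oL : IsOpen {z : ℂ | -(1 / 2) < z.im ∧ z.im < 0} :=
    (isOpen_lt continuous_const Complex.continuous_im).inter
      (isOpen_lt Complex.continuous_im continuous_const)
  have fd : DifferentiableOn ℂ f StI := by
    refine pair_diff (C := C₁) oI (T_diff DM κ hκ).differentiableOn (fun y => ?_) fun z hz => ?_
    · refine (hφd y).comp (differentiable_neg.differentiableOn) fun z hz => ?_
      simp only [Set.mem_setOf_eq, Complex.neg_im]
      have h3 := hz.1
      have h4 := hz.2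
      constructor <;> linarith
    · refine hφb _ ?_ ?_ <;> rw [Complex.neg_im] <;> [linarith [hz.2]; linarith [hz.1]]
  have kd : DifferentiableOn ℂ k {z : ℂ | -(1 / 2) < z.im ∧ z.im < 0} :=
    pair_diff (C := C₂) oL (T_diff DM κ' hκc).differentiableOn hψd fun z hz =>
      hψb z hz.1.le hz.2.le
  have gd : DifferentiableOn ℂ g StI := by
    intro z hz
    have h3 : DifferentiableAt ℂ k (conj z) :=
      (kd (conj z) (by
        simp only [Set.mem_setOf_eq, Complex.conj_im]
        have h3 := hz.1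
        have h4 := hz.2
        constructor <;> linarith)).differentiableAt (oL.mem_nhds (by
        simp only [Set.mem_setOf_eq, Complex.conj_im]
        have h3 := hz.1
        have h4 := hz.2
        constructor <;> linarith))
    exact (differentiableAt_conj_conj_iff.2 h3).differentiableWithinAt
  have fc : ContinuousOn f St := by
    intro z hz
    refine pair_cont (C := C₁) ((T_diff DM κ hκ).continuous.continuousWithinAt) (fun y => ?_)
      fun z hz => ?_
    · refine ContinuousWithinAt.comp (g := fun w : ℂ => ⟪y, φ w⟫_ℂ) (f := fun w : ℂ => -w)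
        (t := {z : ℂ | -(1 / 2) ≤ z.im ∧ z.im ≤ 0}) (hφc y (-z) ?_)
        continuous_neg.continuousWithinAt fun z hz => ?_
      · simp only [Set.mem_setOf_eq, Complex.neg_im]
        have h3 := hz.1
        have h4 := hz.2
        constructor <;> linarith
      · simp only [Set.mem_setOf_eq, Complex.neg_im]
        have h3 := hz.1
        have h4 := hz.2
        constructor <;> linarith
    · refine hφb _ ?_ ?_ <;> rw [Complex.neg_im] <;> [linarith [hz.2]; linarith [hz.1]]
  have kc : ContinuousOn k {z : ℂ | -(1 / 2) ≤ z.im ∧ z.im ≤ 0} := by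
    intro z hz
    exact pair_cont (C := C₂) ((T_diff DM κ' hκc).continuous.continuousWithinAt)
      (fun y => hψc y z hz) fun z hz => hψb z hz.1 hz.2
  have gc : ContinuousOn g St := by
    refine Complex.continuous_conj.comp_continuousOn (kc.comp
      Complex.continuous_conj.continuousOn fun z hz => ?_)
    simp only [Set.mem_setOf_eq, Complex.conj_im]
    have h3 := hz.1
    have h4 := hz.2
    constructor <;> linarith
  have fb : ∀ z ∈ St, ‖f z‖ ≤ ‖u‖ * (B * C₁) := fun z hz => by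
    have h3 : ‖φ (-z)‖ ≤ C₁ := by
      refine hφb _ ?_ ?_ <;> rw [Complex.neg_im] <;> [linarith [hz.2]; linarith [hz.1]]
    have h4 : ‖T z‖ ≤ B := hB z (by linarith [hz.1]) hz.2
    refine (norm_inner_le_norm _ _).trans (mul_le_mul_of_nonneg_left ?_ (norm_nonneg _))
    exact ((T z).le_opNorm _).trans (mul_le_mul h4 h3 (norm_nonneg _) ((norm_nonneg _).trans h4))
  have gb : ∀ z ∈ St, ‖g z‖ ≤ ‖u‖ * (B' * C₂) := fun z hz => by
    have h3 : ‖ψ (conj z)‖ ≤ C₂ := by
      refine hψb _ ?_ ?_ <;> rw [Complex.conj_im] <;> [linarith [hz.2]; linarith [hz.1]]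
    have h4 : ‖T' (conj z)‖ ≤ B' := by
      refine hB' _ ?_ ?_ <;> rw [Complex.conj_im] <;> [linarith [hz.2]; linarith [hz.1]]
    have h5 : ‖g z‖ = ‖k (conj z)‖ := RCLike.norm_conj _
    rw [h5]
    refine (norm_inner_le_norm _ _).trans ?_
    rw [DM.norm_J]
    refine mul_le_mul_of_nonneg_left ?_ (norm_nonneg _)
    exact ((T' _).le_opNorm _).trans (mul_le_mul h4 h3 (norm_nonneg _) ((norm_nonneg _).trans h4))
  -- boundary values
  have eT : ∀ (s : ℝ) (v : H), T s v = DM.Th (ez κ hκ (Complex.I * s)) v := fun s v => rfl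
  have v1 : ∀ s : ℝ, f s = ⟪u, DM.Th (ez κ hκ (Complex.I * s)) (V (-s) x)⟫_ℂ := by
    intro s
    have h3 : φ (-(s : ℂ)) = V (-s) x := by
      have := (hφv (-s)).1
      rwa [Complex.ofReal_neg] at this
    rw [hf]
    simp only [hT, h3]
  have v2 : ∀ s : ℝ, f (s + Complex.I / 2) =
      k₁ * ⟪u, DM.Th (ez κ hκ (Complex.I * s)) (DM.J (V (-s) x'))⟫_ℂ := by
    intro s
    have h3 : φ (-((s : ℂ) + Complex.I / 2)) = k₁ • V (-s) xj := by
      have := (hφv (-s)).2
      rw [Complex.ofReal_neg, hVs] at this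
      rw [← this]
      congr 1
      ring
    have h4 : DM.Th (ez κ hκ (Complex.I * (s + Complex.I / 2))) (V (-s) xj) =
        DM.Th (ez κ hκ (Complex.I * s)) (DM.J (V (-s) x')) := by
      rw [← hVJ, ← hVT, ← hVT, hR _ _ fun h => ?_]
      have e1 : ez κ hκ (Complex.I * (s + Complex.I / 2)) h =
        Complex.exp (Complex.I * (s + Complex.I / 2) * h) * κ h := rfl
      have e2 : ez κ hκ (Complex.I * s) h = Complex.exp (Complex.I * s * h) * κ h := rfl
      rw [e1, e2, ← mul_assoc, Complex.ofReal_exp, ← Complex.exp_add]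
      congr 2
      push_cast
      linear_combination (h / 2 : ℂ) * Complex.I_mul_I
    rw [hf]
    simp only [hT, h3, map_smul, h4, inner_smul_right]
  have v3 : ∀ s : ℝ, g s = ⟪u, DM.Th (ez κ hκ (Complex.I * s)) (DM.J (V (-s) x'))⟫_ℂ := by
    intro s
    have h3 : ψ (s : ℂ) = V (-s) x' := (hψv s).1
    have h4 : g s = conj (⟪DM.J u, DM.Th (ez κ' hκc (Complex.I * s)) (V (-s) x')⟫_ℂ) := by
      rw [hg]
      simp only [hk, hT', Complex.conj_ofReal, h3]
    rw [h4, inner_conj_symm, DM.inner_J_right, DM.J_Th, refl_ez DM κ hκ]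
  have v4 : ∀ s : ℝ, g (s + Complex.I / 2) =
      conj k₂ * ⟪u, DM.Th (ez κ hκ (Complex.I * s)) (V (-s) x)⟫_ℂ := by
    intro s
    have h3 : ψ ((s : ℂ) - Complex.I / 2) = k₂ • V (-s) xs := by
      rw [(hψv s).2, hVs]
    have h5 : DM.Th (ez κ' hκc (Complex.I * (s - Complex.I / 2))) (V (-s) xs) =
        DM.Th (ez κ' hκc (Complex.I * s)) (DM.J (V (-s) x)) := by
      rw [← hVJ, ← hVT, ← hVT, hL _ _ fun h => ?_]
      rw [ez_ap, ez_ap, ← mul_assoc, Complex.ofReal_exp, ← Complex.exp_add]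
      congr 2
      push_cast
      linear_combination (-(h / 2 : ℂ)) * Complex.I_mul_I
    have h4 : g (s + Complex.I / 2) =
        conj k₂ * conj (⟪DM.J u, DM.Th (ez κ' hκc (Complex.I * s)) (DM.J (V (-s) x))⟫_ℂ) := by
      have h6 : conj ((s : ℂ) + Complex.I / 2) = (s : ℂ) - Complex.I / 2 := by
        rw [map_add, Complex.conj_ofReal, map_div₀, Complex.conj_I]
        simp only [map_ofNat]
        ring
      rw [hg]
      simp only [hk, hT', h6, h3, map_smul, h5, inner_smul_right, map_mul]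
    rw [h4, inner_conj_symm, DM.inner_J_right, DM.J_Th, refl_ez DM κ hκ, DM.J_J]
  have h6 := ph hA f g (max (‖u‖ * (B * C₁)) (‖u‖ * (B' * C₂))) hk1
    (k₂ := conj k₂) (by rw [RCLike.norm_conj, hk2]) fd gd fc gc
    (fun z hz => (fb z hz).trans (le_max_left _ _)) (fun z hz => (gb z hz).trans (le_max_right _ _))
    (fun s => by rw [v2, v3]) (fun s => by rw [v4, v1]) t
  have h7 : ∀ s : ℝ, f s = ⟪u, DM.Th κ (DM.U s (V (-s) x))⟫_ℂ := by
    intro s
    rw [v1, ModData.U, ← DM.gd_Th_mul, DM.gd_Th_congr (F := ez κ hκ (Complex.I * s))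
      (G := κ * expB s) fun h => ?_]
    rw [ez_ap, BoundedContinuousFunction.mul_apply, Vale.Agent.P132.expB_apply, mul_comm]
    congr 2
    push_cast
    ring
  have h8 : f 0 = ⟪u, DM.Th κ x⟫_ℂ := by
    have h9 := v1 0
    rw [Complex.ofReal_zero] at h9
    rw [h9, neg_zero, hV0, DM.gd_Th_congr (F := ez κ hκ (Complex.I * 0)) (G := κ) fun h => ?_]
    rw [ez_ap]
    simp
  rw [← h7, ← h8]
  exact_mod_cast h6

end Vale.Agent.P352.BW.H732.Lc
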