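import Vale.Agent.P352.BW.L.Spec
import Vale.Agent.P352.BW.H649.Lc
import Vale.Agent.P352.BW.H732.Lc.Ph
import Vale.Agent.P352.BW.T.S
import Vale.Agent.P352.BW.T.W

/-!
# P352 BW: the modular unitaries of the light cone, blocks S and W
-/

set_option linter.all false

noncomputable section

open MeasureTheory Filter Topology
open scoped ComplexConjugate InnerProductSpace BoundedContinuousFunction

namespace Vale.Agent.P352.BW.L

open Vale.Agent.P132 (ModData expB jconj)
open UniformSpace (Completion)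
open GF H246 H496 H755 H15

variable {D : Type*} [NormedAddCommGroup D] [InnerProductSpace ℂ D] {Q : Theory D}
  {A : (V → V) → D → D}

/-! ### the dilations -/

theorem sim_lin_one (s : ℝ) : (fun m => sim 1 GF.one 0 (GF.one m)) = GF.one := by
  funext m
  rw [BW.Lc.sim_dil, one_smul]

section

variable (hU : UStmt Q A)

include hU

theorem dV_coe (t : ℝ) (v : D) : dV Q t (v : Completion D) = (dD Q t v : D) :=
  hU.coe _ _ 0 v (Real.exp_pos _) isLor_one

theorem dV_lin (t : ℝ) : ∃ W : Completion D ≃ₗᵢ[ℂ] Completion D, ∀ z, W z = dV Q t z :=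
  hU.lin _ _ 0 (Real.exp_pos _) isLor_one

theorem dV_zero (z : Completion D) : dV Q 0 z = z := by
  obtain ⟨W, hW⟩ := dV_lin hU 0
  have h1 : ∀ z, dV Q 0 z = W z := fun z => (hW z).symm
  refine Completion.induction_on z ?_ fun v => ?_
  · exact isClosed_eq ((continuous_congr h1).2 W.continuous) continuous_id
  · rw [dV_coe hU, dD, mul_zero, neg_zero, Real.exp_zero]
    exact congrArg _ (Uone v)

theorem dV_add (s t : ℝ) (z : Completion D) : dV Q s (dV Q t z) = dV Q (s + t) z := by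
  have h := hU.mul (Real.exp (-(2 * Real.pi * s))) GF.one 0 (Real.exp (-(2 * Real.pi * t))) GF.one 0
    z (Real.exp_pos _) (Real.exp_pos _) isLor_one isLor_one
  rw [sim_lin_one 1, ← Real.exp_add, BW.Lc.sim_dil, smul_zero] at h
  have e : -(2 * Real.pi * s) + -(2 * Real.pi * t) = -(2 * Real.pi * (s + t)) := by ring
  rw [e] at h
  exact h

theorem dV_right (t : ℝ) (z : Completion D) : dV Q t (dV Q (-t) z) = z := by
  rw [dV_add hU, add_neg_cancel, dV_zero hU]

theorem dV_left (t : ℝ) (z : Completion D) : dV Q (-t) (dV Q t z) = z := by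
  rw [dV_add hU, neg_add_cancel, dV_zero hU]

theorem dV_smul (t : ℝ) (c : ℂ) (z : Completion D) : dV Q t (c • z) = c • dV Q t z := by
  obtain ⟨W, hW⟩ := dV_lin hU t
  rw [← hW, ← hW, map_smul]

theorem dV_vac (t : ℝ) : dV Q t (om Q) = om Q := hU.vac _ _ 0 (Real.exp_pos _) isLor_one

theorem dD_smul (t : ℝ) (c : ℂ) (v : D) :
    ((dD Q t (c • v) : D) : Completion D) = dV Q t (c • (v : Completion D)) := by
  rw [← Completion.coe_smul, dV_coe hU]

end

/-- the dilations commute with the modular objects -/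
theorem dV_nat (hU : UStmt Q A) (hN : T.NStmt (Completion D))
    {M : VonNeumannAlgebra (Completion D)} (hM : Wal Q M) (E : ModData M (om Q)) (t : ℝ) :
    (∀ F z, dV Q t (E.Th F z) = E.Th F (dV Q t z)) ∧
      ∀ z, dV Q t (E.J z) = E.J (dV Q t z) := by
  obtain ⟨W, hW'⟩ := dV_lin hU t
  have h := hN M (om Q) E W (by rw [hW', dV_vac hU]) ?_ ?_
  · simp only [hW'] at h
    exact h
  · intro X hX
    obtain ⟨Y, hY, h1⟩ := hM.cov t X hX
    exact ⟨Y, hY, fun z => by rw [hW', hW']; exact h1 z⟩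
  · intro Y hY
    obtain ⟨X, hX, h1⟩ := hM.cov (-t) Y hY
    refine ⟨X, hX, fun z => ?_⟩
    rw [hW', hW']
    have h2 : X z = dV Q (-t) (Y (dV Q t z)) := by
      have h3 := h1 (dV Q t z)
      rwa [dV_left hU] at h3
    rw [h2, dV_right hU]

/-- **Block S** -/
theorem s (hU : UStmt Q A) (h1 : T1Stmt Q A) (hO : OStmt Q A) (hM : T.MStmt D)
    (hN : T.NStmt (Completion D)) (hA : AStmt) : SStmt Q A := by
  intro R M E hw d B f t hB hf
  have T1' := h1 R
  obtain ⟨B', hB', hadj⟩ := T1'.adj d B hB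
  set f1 := rf f with hf1
  have if1 : In Bk f1 := T1'.fb f hf
  have if' : In Bk (GF.bar f1) := T1'.ib _ _ if1
  have ifb : In Fc (GF.bar f) := T1'.ib _ _ hf
  have e2 : rf (GF.bar f1) = GF.bar f := by
    rw [hf1, T1'.cj, T1'.rr]
  -- continuation
  obtain ⟨G, g1, g2, g3, g4⟩ := (hO R d B f hB).1 hf
  obtain ⟨G', g1', g2', g3', g4'⟩ := (hO R d B' (GF.bar f1) hB').2 if'
  rw [e2] at g4'
  set κ : ℂ := Complex.exp (Complex.I * Real.pi * d) with hκ
  set κ' : ℂ := Complex.exp (-(Complex.I * Real.pi * d)) with hκ'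
  have nκ : ‖κ‖ = 1 := by
    rw [hκ, Complex.norm_exp]
    simp
  have nκ' : ‖κ'‖ = 1 := by
    rw [hκ', Complex.norm_exp]
    simp
  have k1 : H23.Ct (dV Q) ((B f Q.vac : D) : Completion D)
      (κ • ((B f1 Q.vac : D) : Completion D)) := T.ct_of g1 g2 g3 fun t => by
    rw [dV_coe hU, ← dD_smul hU]
    exact g4 t
  have k2 : H23.Ct (fun t => dV Q (-t)) ((B' (GF.bar f1) Q.vac : D) : Completion D)
      (κ' • ((B' (GF.bar f) Q.vac : D) : Completion D)) := T.ct_of g1' g2' g3' fun t => by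
    have h5 := g4' t
    simp only [dV_coe hU, ← dD_smul hU]
    exact h5
  -- modular theory
  have m1 := (hM M Q.vac E (B' (GF.bar f)) (B f)).1
    (T.afs_of (fun v w => by
      rw [← inner_conj_symm, ← hadj f w v hf.1, inner_conj_symm]) (hw.aff B' _ hB'.fld ifb))
  have m2 := (hM M Q.vac E (B f1) (B' (GF.bar f1))).2
    (T.afs_of (fun v w => hadj f1 v w if1.1) (hw.aff' B _ hB.fld if1))
  have key := H732.Lc.sblockP E hA (dV Q) (dV_zero hU)
    (fun F t z => (dV_nat hU hN hw E t).1 F z) (fun t z => (dV_nat hU hN hw E t).2 z)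
    (dV_smul hU) nκ nκ'
    _ _ _ _ k1 k2 (fun F G hFG => m2 G F fun h => by
      rw [hFG h, ← mul_assoc, ← Complex.ofReal_mul, ← Real.exp_add, add_neg_cancel, Real.exp_zero,
        Complex.ofReal_one, one_mul]) (fun F G hFG => m1 F G hFG) t
  have h7 := congrArg (dV Q t) key
  rw [ModData.U, (dV_nat hU hN hw E t).1, dV_right hU, dV_coe hU] at h7
  exact h7

/-- block W -/
theorem w {𝒜 : Set V → VonNeumannAlgebra (Completion D)} : WStmt Q A 𝒜 := by
  intro N hH
  refine ⟨fun B f hB hf => N.fld _ _ f hB hf, fun B f hB hf => ?_, fun t X hX => ?_⟩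
  · refine T.H732W.aff_mono (M := 𝒜 Bk) ?_ (N.fld _ _ f hB hf)
    intro Y hY
    rw [VonNeumannAlgebra.commutant_commutant] at hY
    rw [VonNeumannAlgebra.mem_commutant_iff]
    intro X hX
    exact (VonNeumannAlgebra.mem_commutant_iff.1 (hH X hX) Y hY).symm
  · exact (N.dilF (Real.exp_pos _)).1 X hX

end Vale.Agent.P352.BW.L

end
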