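import Vale.Agent.P352.BW.H732.Lc.S
import Vale.Agent.P352.BW.Mb

/-!
# P352 BW: the modular unitaries of the light cone from the Huygens principle
-/

set_option linter.all false

noncomputable section

open MeasureTheory Filter Topology
open scoped ComplexConjugate InnerProductSpace BoundedContinuousFunction

namespace Vale.Agent.P352.BW.L

open Vale.Agent.P132 (ModData exists_modData)
open UniformSpace (Completion)
open GF H246 H496 H755 H15

variable {D : Type*} [NormedAddCommGroup D] [InnerProductSpace ℂ D] {Q : Theory D}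
  {A : (V → V) → D → D} {𝒜 : Set V → VonNeumannAlgebra (Completion D)}

lemma isOpen_bk : IsOpen Bk := by
  have h1 : IsOpen {z : V | 0 < GF.mdot z z} := isOpen_lt continuous_const HM.H584.cont_sq
  have h2 : IsOpen {z : V | z GF.o < 0} := isOpen_lt (continuous_apply _) continuous_const
  exact h1.inter h2

lemma fc_ne : Fc.Nonempty := by
  refine ⟨![1, 0, 0, 0], ?_, ?_⟩
  · rw [Reg1.md]
    simp
  · show (0 : ℝ) < (![1, 0, 0, 0] : V) 0
    simp

lemma bk_ne : Bk.Nonempty := by
  refine ⟨![-1, 0, 0, 0], ?_, ?_⟩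
  · rw [Reg1.md]
    simp
  · show (![-1, 0, 0, 0] : V) 0 < (0 : ℝ)
    simp

/-- modular data of the algebra of the light cone, if the algebras of opposite light cones
commute -/
theorem modH (N : LNm Q A 𝒜) (hH : ∀ X ∈ 𝒜 Bk, X ∈ (𝒜 Fc).commutant) :
    Nonempty (ModData (𝒜 Fc) (om Q)) := by
  refine exists_modData _ _ (H732G.norm_om Q) (N.cyc BW.Lc.isOpen_fc fc_ne) fun X hX h0 => ?_
  ext z
  have hcl : IsClosed {z : Completion D | X z = 0} := isClosed_eq X.continuous continuous_const
  refine closure_minimal ?_ hcl (N.cyc isOpen_bk bk_ne z)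
  rintro _ ⟨Y, hY, rfl⟩
  have h2 := hH Y hY
  rw [VonNeumannAlgebra.mem_commutant_iff] at h2
  have h3 := congrArg (fun T : Completion D →L[ℂ] Completion D => T (om Q)) (h2 X hX)
  have h4 : X (Y (om Q)) = Y (X (om Q)) := h3
  change X (Y (om Q)) = 0
  rw [h4, h0, map_zero]

/-- **The modular unitaries of the light cone are the dilations**, if the algebras of opposite
light cones commute -/
theorem lc_of_b (hB : BStmt Q A) (hG : DGen Q) (N : LNm Q A 𝒜)
    (hH : ∀ X ∈ 𝒜 Bk, X ∈ (𝒜 Fc).commutant) : ∃ J, IsMod (𝒜 Fc) (om Q)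
      (fun t z => Ue Q (Real.exp (-(2 * Real.pi * t))) GF.one 0 z) J := by
  obtain ⟨E⟩ := modH N hH
  have h1 := hB N.toRep hG (𝒜 Fc) E (w N hH)
  refine ⟨fun x => E.J x, ?_⟩
  have e : (fun t z => Ue Q (Real.exp (-(2 * Real.pi * t))) GF.one 0 z) = fun t x => E.U t x := by
    funext t z
    exact (h1 t z).symm
  rw [e]
  exact isMod E

end Vale.Agent.P352.BW.L

end
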